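import Mathlib

/-!
# P040 / CENT: centralisers in free groups (helper112)

`cent_of_hom`: in a free group, if a homomorphism to `ℤ` takes the value `1` at `t`, then the
centraliser of `t` is the group of powers of `t`.  `cent_mul_inv`, `cent_inv_mul`: the cases
`t = a b⁻¹`, `t = b⁻¹ a` with `a ≠ b` free generators; `cent_of`: `t = a`.
-/

universe u

namespace Vale.Agent.P040.H112

open FreeGroup

/-- two generators of a commutative free group are equal -/
theorem generators_subsingleton {H : Type u} [Group H] [IsFreeGroup H]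
    (hc : ∀ x y : H, x * y = y * x) : Subsingleton (IsFreeGroup.Generators H) := by
  refine ⟨fun i j => ?_⟩
  by_contra hij
  have h1 : (IsFreeGroup.basis H).repr ((IsFreeGroup.basis H) i * (IsFreeGroup.basis H) j) =
      (IsFreeGroup.basis H).repr ((IsFreeGroup.basis H) j * (IsFreeGroup.basis H) i) := by
    rw [hc]
  rw [_root_.map_mul, _root_.map_mul] at h1
  simp only [FreeGroupBasis.repr_apply_coe] at h1
  classical
  have h2 := congrArg FreeGroup.toWord h1
  have h3 : ∀ p q : IsFreeGroup.Generators H, p ≠ q →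
      (of p * of q : FreeGroup (IsFreeGroup.Generators H)).toWord = [(p, true), (q, true)] := by
    intro p q hpq
    have : (of p * of q : FreeGroup (IsFreeGroup.Generators H)) =
        FreeGroup.mk [(p, true), (q, true)] := rfl
    rw [this, FreeGroup.toWord_mk]
    simp [FreeGroup.reduce.cons]
  rw [h3 i j hij, h3 j i (Ne.symm hij)] at h2
  simp only [List.cons.injEq, Prod.mk.injEq] at h2
  exact hij h2.1.1

/-- a free group on at most one generator is cyclic -/
theorem exists_zpow_of_subsingleton {H : Type u} [Group H] [IsFreeGroup H]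
    (hs : Subsingleton (IsFreeGroup.Generators H)) : ∃ c : H, ∀ x : H, ∃ n : ℤ, x = c ^ n := by
  classical
  by_cases hne : Nonempty (IsFreeGroup.Generators H)
  · obtain ⟨i⟩ := hne
    refine ⟨(IsFreeGroup.basis H) i, fun x => ?_⟩
    have key : ∀ g : FreeGroup (IsFreeGroup.Generators H), ∃ n : ℤ, g = of i ^ n := by
      intro g
      induction g using FreeGroup.induction_on with
      | C1 => exact ⟨0, by simp⟩
      | of j => exact ⟨1, by rw [zpow_one, hs.elim i j]⟩
      | inv_of j _ => exact ⟨-1, by rw [zpow_neg, zpow_one, hs.elim i j]⟩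
      | mul g h hg hh =>
        obtain ⟨m, hm⟩ := hg
        obtain ⟨n, hn⟩ := hh
        exact ⟨m + n, by rw [hm, hn, zpow_add]⟩
    obtain ⟨n, hn⟩ := key ((IsFreeGroup.basis H).repr x)
    refine ⟨n, (IsFreeGroup.basis H).repr.injective ?_⟩
    rw [hn, map_zpow, FreeGroupBasis.repr_apply_coe]
  · refine ⟨1, fun x => ⟨0, (IsFreeGroup.basis H).repr.injective ?_⟩⟩
    have key : ∀ g : FreeGroup (IsFreeGroup.Generators H), g = 1 := by
      intro g
      induction g using FreeGroup.induction_on with
      | C1 => rfl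
      | of j => exact absurd ⟨j⟩ hne
      | inv_of j _ => exact absurd ⟨j⟩ hne
      | mul g h hg hh => rw [hg, hh, one_mul]
    rw [key ((IsFreeGroup.basis H).repr x), key ((IsFreeGroup.basis H).repr _)]

/-- commuting elements of a free group are powers of one element -/
theorem exists_common_zpow {G : Type u} [Group G] [IsFreeGroup G] {x y : G}
    (h : x * y = y * x) : ∃ (c : G) (m n : ℤ), x = c ^ m ∧ y = c ^ n := by
  have hcomm : ∀ a b : Subgroup.closure ({x, y} : Set G), a * b = b * a := by
    have hc := Subgroup.isMulCommutative_closure (k := ({x, y} : Set G)) (by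
      intro a ha b hb
      simp only [Set.mem_insert_iff, Set.mem_singleton_iff] at ha hb
      rcases ha with rfl | rfl <;> rcases hb with rfl | rfl
      · rfl
      · exact h
      · exact h.symm
      · rfl)
    intro a b
    exact hc.is_comm.comm a b
  obtain ⟨c, hcpow⟩ := exists_zpow_of_subsingleton (generators_subsingleton hcomm)
  obtain ⟨m, hm⟩ := hcpow ⟨x, Subgroup.subset_closure (by simp)⟩
  obtain ⟨n, hn⟩ := hcpow ⟨y, Subgroup.subset_closure (by simp)⟩
  exact ⟨c, m, n, by simpa using congrArg Subtype.val hm, by simpa using congrArg Subtype.val hn⟩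

/-- **Centralisers.** -/
theorem cent_of_hom {G : Type u} [Group G] [IsFreeGroup G] (f : G →* Multiplicative ℤ) {t w : G}
    (ht : f t = Multiplicative.ofAdd 1) (h : w * t * w⁻¹ = t) : ∃ j : ℤ, w = t ^ j := by
  have h' : w * t = t * w := mul_inv_eq_iff_eq_mul.1 h
  obtain ⟨c, m, n, hw, htc⟩ := exists_common_zpow h'
  have h1 : (f c) ^ n = Multiplicative.ofAdd 1 := by rw [← map_zpow, ← htc, ht]
  have h2 : n * Multiplicative.toAdd (f c) = 1 := by
    have := congrArg Multiplicative.toAdd h1
    simpa [toAdd_zpow] using this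
  have h3 : n = 1 ∨ n = -1 := Int.isUnit_iff.1 (IsUnit.of_mul_eq_one _ h2)
  rcases h3 with rfl | rfl
  · exact ⟨m, by rw [hw, htc, zpow_one]⟩
  · exact ⟨-m, by rw [hw, htc, ← zpow_mul]; simp⟩

variable {α : Type u}

theorem cent_of {a : α} {w : FreeGroup α} (h : w * of a * w⁻¹ = of a) :
    ∃ j : ℤ, w = of a ^ j := by
  classical
  exact cent_of_hom (FreeGroup.lift fun c => Multiplicative.ofAdd (if c = a then (1 : ℤ) else 0))
    (by simp) h

theorem cent_mul_inv {a b : α} (hab : a ≠ b) {w : FreeGroup α}
    (h : w * (of a * (of b)⁻¹) * w⁻¹ = of a * (of b)⁻¹) : ∃ j : ℤ, w = (of a * (of b)⁻¹) ^ j := by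
  classical
  exact cent_of_hom (FreeGroup.lift fun c => Multiplicative.ofAdd (if c = a then (1 : ℤ) else 0))
    (by simp [hab.symm]) h

theorem cent_inv_mul {a b : α} (hab : a ≠ b) {w : FreeGroup α}
    (h : w * ((of b)⁻¹ * of a) * w⁻¹ = (of b)⁻¹ * of a) : ∃ j : ℤ, w = ((of b)⁻¹ * of a) ^ j := by
  classical
  exact cent_of_hom (FreeGroup.lift fun c => Multiplicative.ofAdd (if c = a then (1 : ℤ) else 0))
    (by simp [hab.symm]) h

end Vale.Agent.P040.H112
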